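import Vale.Agent.P330.H16.MDefs

/-!
# Basic facts about points, numbers, Lagrange polynomials and low degree extensions
-/

namespace Vale.Agent.P330.H16

open Finset

variable {κ : ℕ} {F : Type}

/-! ### Numbers of points -/

theorem zmod2_cases (a : ZMod 2) : a = 0 ∨ a = 1 := by
  revert a; decide

theorem num_aux : ∀ (κ : ℕ) (x : V2 κ),
    num x < 2 ^ κ ∧ ∀ j : Fin κ, (num x).testBit j = decide (x j = 1) := by
  intro κ
  induction κ with
  | zero =>
    intro x
    refine ⟨by simp [num], fun j => j.elim0⟩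
  | succ κ ih =>
    intro x
    obtain ⟨h1, h2⟩ := ih (fun j => x j.castSucc)
    have e1 : num x = 2 ^ κ * (if x (Fin.last κ) = 1 then 1 else 0) +
        num (fun j : Fin κ => x j.castSucc) := by
      unfold num
      rw [Fin.sum_univ_castSucc, add_comm]
      congr 1
      split_ifs <;> simp
    refine ⟨?_, fun j => ?_⟩
    · rw [e1, pow_succ]
      split_ifs <;> omega
    · rw [e1, Nat.testBit_two_pow_mul_add _ h1]
      refine Fin.lastCases ?_ (fun i => ?_) j
      · simp only [Fin.val_last, lt_irrefl, if_false, Nat.sub_self]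
        split_ifs with h <;> simp [h]
      · rw [if_pos (by simp)]
        exact h2 i

theorem num_lt (x : V2 κ) : num x < 2 ^ κ := (num_aux κ x).1

theorem testBit_num (x : V2 κ) (j : Fin κ) : (num x).testBit j = decide (x j = 1) :=
  (num_aux κ x).2 j

@[simp] theorem pt_num (x : V2 κ) : pt κ (num x) = x := by
  funext j
  unfold pt
  rw [testBit_num]
  rcases zmod2_cases (x j) with h | h <;> simp [h]

theorem num_pt {p : ℕ} (hp : p < 2 ^ κ) : num (pt κ p) = p := by
  apply Nat.eq_of_testBit_eq
  intro j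
  by_cases hj : j < κ
  · have := testBit_num (pt κ p) ⟨j, hj⟩
    simp only at this
    rw [this]
    unfold pt
    simp only
    cases p.testBit j <;> simp
  · rw [Nat.testBit_lt_two_pow (lt_of_lt_of_le (num_lt _) (Nat.pow_le_pow_right (by norm_num)
      (not_lt.1 hj))), Nat.testBit_lt_two_pow (lt_of_lt_of_le hp (Nat.pow_le_pow_right
      (by norm_num) (not_lt.1 hj)))]

theorem num_inj {x y : V2 κ} (h : num x = num y) : x = y := by
  rw [← pt_num x, h, pt_num]

theorem pt_inj {p q : ℕ} (hp : p < 2 ^ κ) (hq : q < 2 ^ κ) (h : pt κ p = pt κ q) : p = q := by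
  rw [← num_pt hp, h, num_pt hq]

theorem pt_xor (p q : ℕ) : pt κ (p ^^^ q) = pt κ p + pt κ q := by
  funext j
  simp only [pt, Pi.add_apply, Nat.testBit_xor]
  cases p.testBit j <;> cases q.testBit j <;> simp
  decide

@[simp] theorem pt_zero : pt κ 0 = 0 := by
  funext j
  simp [pt]

theorem e_eq_pt (j : ℕ) : e κ j = pt κ (2 ^ j) := by
  funext i
  unfold e pt
  rw [Nat.testBit_two_pow]
  by_cases h : (i : ℕ) = j
  · simp [h]
  · have : ¬ j = (i : ℕ) := fun h' => h h'.symm
    simp [h, this]

theorem v2_add_self (x : V2 κ) : x + x = 0 := by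
  funext j
  show x j + x j = 0
  rcases zmod2_cases (x j) with h | h <;> rw [h] <;> decide

theorem num_add_pt (x : V2 κ) {p : ℕ} (hp : p < 2 ^ κ) : num (x + pt κ p) = num x ^^^ p := by
  have h : x + pt κ p = pt κ (num x ^^^ p) := by rw [pt_xor, pt_num]
  rw [h, num_pt (Nat.xor_lt_two_pow (num_lt x) hp)]

theorem num_add (x y : V2 κ) : num (x + y) = num x ^^^ num y := by
  conv_lhs => rw [← pt_num y]
  exact num_add_pt x (num_lt y)

/-- Sums over the points are sums over their numbers. -/
theorem sum_points {A : Type*} [AddCommMonoid A] (f : V2 κ → A) :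
    ∑ x, f x = ∑ p ∈ range (2 ^ κ), f (pt κ p) := by
  refine Finset.sum_nbij' (fun x => num x) (fun p => pt κ p) ?_ ?_ ?_ ?_ ?_
  · intro x _
    exact mem_range.2 (num_lt x)
  · intro p _
    exact mem_univ _
  · intro x _
    exact pt_num x
  · intro p hp
    exact num_pt (mem_range.1 hp)
  · intro x _
    rw [pt_num]

/-! ### Evaluation of the simple operations -/

theorem dw_pt [Zero F] {k : ℕ} (g : ℕ → F) {p : ℕ} (hk : k ≤ κ) (hp : p < 2 ^ k) :
    dw κ k g (pt κ p) = g p := by
  have h := num_pt (κ := κ) (lt_of_lt_of_le hp (Nat.pow_le_pow_right (by norm_num) hk))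
  simp [dw, h, hp]

theorem pre_pt [Zero F] {h : ℕ} (u : Ct κ F) {p : ℕ} (hp : p < 2 ^ κ) :
    pre h u (pt κ p) = if p < h then u (pt κ p) else 0 := by
  simp [pre, num_pt hp]

theorem msk_pt [Zero F] (m : ℕ → Bool) (u : Ct κ F) {p : ℕ} (hp : p < 2 ^ κ) :
    msk m u (pt κ p) = if m p then u (pt κ p) else 0 := by
  simp [msk, num_pt hp]

theorem tr_pt (q : ℕ) (u : Ct κ F) (p : ℕ) : tr (pt κ q) u (pt κ p) = u (pt κ (p ^^^ q)) := by
  rw [tr, pt_xor]

/-- Two contents with support in the slots are equal if they agree at the slots. -/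
theorem ext_pre [Zero F] {k : ℕ} {u v : Ct κ F} (hu : pre (2 ^ k) u = u) (hv : pre (2 ^ k) v = v)
    (h : ∀ p < 2 ^ k, u (pt κ p) = v (pt κ p)) : u = v := by
  funext x
  rw [← hu, ← hv]
  unfold pre
  split_ifs with hx
  · have := h _ hx
    rwa [pt_num] at this
  · rfl

theorem pre_pre [Zero F] {a b : ℕ} (h : a ≤ b) (u : Ct κ F) : pre b (pre a u) = pre a u := by
  funext x
  unfold pre
  by_cases hx : num x < b
  · rw [if_pos hx]
  · rw [if_neg hx, if_neg (fun h' => hx (lt_of_lt_of_le h' h))]

theorem pre_dw [Zero F] {k : ℕ} (g : ℕ → F) : pre (2 ^ k) (dw κ k g) = dw κ k g := by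
  funext x
  unfold pre dw
  split_ifs <;> rfl

theorem dw_of_pre [Zero F] {k : ℕ} {u : Ct κ F} (hu : pre (2 ^ k) u = u) :
    u = dw κ k fun p => u (pt κ p) := by
  funext x
  conv_lhs => rw [← hu]
  simp [pre, dw]

/-! ### Subspace polynomials at the slots -/

namespace RSys

variable [Field F] (R : RSys κ F)

theorem s_zero (j : ℕ) : R.s j 0 = 0 := by
  have := R.s_add j 0 0
  rw [add_zero] at this
  have h2 : R.s j 0 + 0 = R.s j 0 + R.s j 0 := by rw [add_zero]; exact this
  exact (add_left_cancel h2).symm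

include R in
theorem two (hκ : 0 < κ) : (1 : F) + 1 = 0 := by
  have h := R.s_add 0 (e κ 0) (e κ 0)
  rw [v2_add_self, R.s_zero, R.s_self 0 hκ] at h
  exact h.symm

include R in
theorem add_self (hκ : 0 < κ) (a : F) : a + a = 0 := by
  rw [← mul_one a, ← mul_add, R.two hκ, mul_zero]

include R in
theorem neg_eq (hκ : 0 < κ) (a : F) : -a = a :=
  neg_eq_of_add_eq_zero_left (R.add_self hκ a)

theorem s_sum {ι : Type*} (t : Finset ι) (f : ι → V2 κ) (j : ℕ) :
    R.s j (∑ i ∈ t, f i) = ∑ i ∈ t, R.s j (f i) := by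
  classical
  induction t using Finset.induction_on with
  | empty => simp [R.s_zero]
  | insert a t ha ih => rw [Finset.sum_insert ha, Finset.sum_insert ha, R.s_add, ih]

/-- A point with a number in `[2 ^ j, 2 ^ (j+1))` has `s j = 1`. -/
theorem s_top {j : ℕ} (hj : j < κ) : ∀ m, m < 2 ^ j → R.s j (pt κ (2 ^ j ^^^ m)) = 1 := by
  have h0 : ∀ i m, i ≤ j → m < 2 ^ i → R.s j (pt κ m) = 0 := by
    intro i
    induction i with
    | zero =>
      intro m _ hm
      have : m = 0 := by simpa using hm
      rw [this, pt_zero, R.s_zero]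
    | succ i ih =>
      intro m hi hm
      by_cases hb : m < 2 ^ i
      · exact ih m (by omega) hb
      · have h1 : m = 2 ^ i ^^^ (2 ^ i ^^^ m) := by
          rw [← Nat.xor_assoc, Nat.xor_self, Nat.zero_xor]
        have h2 : 2 ^ i ^^^ m < 2 ^ i := by
          apply Nat.lt_pow_two_of_testBit
          intro l hl
          rw [Nat.testBit_xor]
          rcases Nat.lt_or_ge l (i + 1) with h3 | h3
          · have h4 : l = i := by omega
            subst h4
            have h5 : m.testBit l = true := by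
              rw [Nat.testBit, Nat.shiftRight_eq_div_pow]
              have : m / 2 ^ l = 1 := by
                rw [Nat.div_eq_iff (by positivity)]
                rw [pow_succ] at hm
                constructor <;> omega
              simp [this]
            rw [h5, Nat.testBit_two_pow_self]
            rfl
          · rw [Nat.testBit_lt_two_pow (lt_of_lt_of_le hm (Nat.pow_le_pow_right (by norm_num) h3)),
              Nat.testBit_two_pow_of_ne (by omega)]
            rfl
        rw [h1, pt_xor, R.s_add, ih _ (by omega) h2, add_zero, ← e_eq_pt]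
        exact R.s_low i j (by omega) hj
  intro m hm
  rw [pt_xor, R.s_add, h0 j m le_rfl hm, add_zero, ← e_eq_pt, R.s_self j hj]

/-- **Interpolation.** -/
theorem L_pt {k p q : ℕ} (hk : k ≤ κ) (hp : p < 2 ^ k) (hq : q < 2 ^ k) :
    R.L k p (pt κ q) = if p = q then 1 else 0 := by
  unfold L
  by_cases h : p = q
  · subst h
    rw [if_pos rfl]
    refine Finset.prod_eq_one fun j hj => ?_
    have hκ : 0 < κ := by have := mem_range.1 hj; omega
    rw [add_assoc, R.add_self hκ, add_zero]
  · rw [if_neg h]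
    have hne : q ^^^ p ≠ 0 := fun h' => h (Nat.xor_eq_zero_iff.1 h').symm
    have hlt : q ^^^ p < 2 ^ k := Nat.xor_lt_two_pow hq hp
    set m := q ^^^ p with hm
    set j := Nat.log 2 m with hj
    have hjk : j < k := Nat.log_lt_of_lt_pow hne hlt
    have h1 : 2 ^ j ≤ m := Nat.pow_log_le_self 2 hne
    have h2 : m < 2 ^ (j + 1) := Nat.lt_pow_succ_log_self (by norm_num) m
    have h3 : 2 ^ j ^^^ m < 2 ^ j := by
      apply Nat.lt_pow_two_of_testBit
      intro l hl
      rw [Nat.testBit_xor]
      rcases Nat.lt_or_ge l (j + 1) with h3 | h3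
      · have h4 : l = j := by omega
        have h5 : m.testBit l = true := by
          rw [h4, Nat.testBit, Nat.shiftRight_eq_div_pow]
          have : m / 2 ^ j = 1 := by
            rw [Nat.div_eq_iff (by positivity)]
            rw [pow_succ] at h2
            constructor <;> omega
          simp [this]
        rw [h5, h4, Nat.testBit_two_pow_self]
        rfl
      · rw [Nat.testBit_lt_two_pow (lt_of_lt_of_le h2 (Nat.pow_le_pow_right (by norm_num) h3)),
          Nat.testBit_two_pow_of_ne (by omega)]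
        rfl
    have h4 : R.s j (pt κ q) + R.s j (pt κ p) = 1 := by
      rw [← R.s_add, ← pt_xor, ← hm]
      have h5 : m = 2 ^ j ^^^ (2 ^ j ^^^ m) := by
        rw [← Nat.xor_assoc, Nat.xor_self, Nat.zero_xor]
      rw [h5]
      exact R.s_top (by omega) _ h3
    refine Finset.prod_eq_zero (mem_range.2 hjk) ?_
    rw [add_assoc, h4]
    exact R.two (by omega)

/-! ### Low degree extensions -/

theorem lde_pt {k p : ℕ} (hk : k ≤ κ) (g : ℕ → F) (hp : p < 2 ^ k) :
    R.lde k g (pt κ p) = g p := by
  unfold lde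
  rw [Finset.sum_eq_single p]
  · rw [R.L_pt hk hp hp, if_pos rfl, mul_one]
  · intro q hq hqp
    rw [R.L_pt hk (mem_range.1 hq) hp, if_neg hqp, mul_zero]
  · intro h
    exact absurd (mem_range.2 hp) h

theorem ldeW_pt {k p : ℕ} (hk : k ≤ κ) (u : Ct κ F) (hp : p < 2 ^ k) :
    R.ldeW k u (pt κ p) = u (pt κ p) := R.lde_pt hk _ hp

theorem lde_congr {k : ℕ} {g g' : ℕ → F} (h : ∀ p < 2 ^ k, g p = g' p) :
    R.lde k g = R.lde k g' := by
  funext x
  unfold lde
  exact Finset.sum_congr rfl fun p hp => by rw [h p (mem_range.1 hp)]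

theorem ldeW_congr {k : ℕ} {u u' : Ct κ F} (h : ∀ p < 2 ^ k, u (pt κ p) = u' (pt κ p)) :
    R.ldeW k u = R.ldeW k u' := R.lde_congr h

theorem lde_add {k : ℕ} (g g' : ℕ → F) (x : V2 κ) :
    R.lde k (fun p => g p + g' p) x = R.lde k g x + R.lde k g' x := by
  unfold lde
  rw [← Finset.sum_add_distrib]
  exact Finset.sum_congr rfl fun p _ => add_mul _ _ _

theorem lde_smul {k : ℕ} (c : F) (g : ℕ → F) (x : V2 κ) :
    R.lde k (fun p => c * g p) x = c * R.lde k g x := by
  unfold lde
  rw [Finset.mul_sum]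
  exact Finset.sum_congr rfl fun p _ => mul_assoc _ _ _

theorem lde_zero {k : ℕ} (x : V2 κ) : R.lde k (fun _ => 0) x = 0 := by
  unfold lde
  exact Finset.sum_eq_zero fun p _ => zero_mul _

theorem lde_single {k a : ℕ} (ha : a < 2 ^ k) (x : V2 κ) :
    R.lde k (fun p => if p = a then 1 else 0) x = R.L k a x := by
  unfold lde
  rw [Finset.sum_eq_single a]
  · simp
  · intro q _ hqa
    simp [hqa]
  · intro h
    exact absurd (mem_range.2 ha) h

/-- The Lagrange polynomials have degree less than `2 ^ k`. -/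
theorem L_mem {k p : ℕ} : k ≤ κ → R.L k p ∈ R.RS (2 ^ k) := by
  induction k with
  | zero =>
    intro _
    have : R.L 0 p = fun _ => (1 : F) := by
      funext x
      simp [L]
    rw [this]
    simpa using R.one_RS
  | succ k ih =>
    intro hk
    have h1 := ih (by omega)
    have e1 : R.L (k + 1) p = fun x => R.L k p x * (1 + R.s k x + R.s k (pt κ p)) := by
      funext x
      unfold L
      rw [Finset.prod_range_succ]
    have h2 : (fun x => 1 + R.s k x + R.s k (pt κ p)) ∈ R.RS (2 ^ k + 1) := by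
      have h3 : (fun _ : V2 κ => (1 : F)) ∈ R.RS (2 ^ k + 1) :=
        R.mono 1 _ (Nat.le_add_left 1 _) R.one_RS
      have h4 := (R.RS (2 ^ k + 1)).add_mem (((R.RS (2 ^ k + 1)).add_mem h3 (R.s_RS k (by omega))))
        ((R.RS (2 ^ k + 1)).smul_mem (R.s k (pt κ p)) h3)
      convert h4 using 1
      funext x
      simp
    rw [e1]
    have hpos : 0 < 2 ^ k := by positivity
    have h5 := R.mul (2 ^ k - 1) (2 ^ k) (R.L k p) _
      (by rw [Nat.sub_add_cancel hpos]; exact h1) h2
    have e2 : 2 ^ k - 1 + 2 ^ k + 1 = 2 ^ (k + 1) := by rw [pow_succ]; omega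
    rwa [e2] at h5

theorem lde_mem {k : ℕ} (hk : k ≤ κ) (g : ℕ → F) : R.lde k g ∈ R.RS (2 ^ k) := by
  have : R.lde k g = ∑ p ∈ range (2 ^ k), g p • R.L k p := by
    funext x
    simp [lde]
  rw [this]
  exact Submodule.sum_mem _ fun p _ => Submodule.smul_mem _ _ (R.L_mem hk)

end RSys

end Vale.Agent.P330.H16
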