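import Vale.Agent.P330.H244.Stat

/-!
# The static theorem, second part

`stat_of_exact`: contents which satisfy the static checks, with exact products, are the contents of
a state. `statC`: the converse.
-/

namespace Vale.Agent.P330.H16

open Finset

namespace MP

variable {M : MP} {F : Type} [Field F] {R : RSys M.κ F}

/-- The input slots of the free bank hold truth values. -/
theorem input_bool (hM : M.Good) (hprev : ∀ i < M.n, M.prev (4 * i + 1) = 4 * i)
    {c : Cont M.κ F} (hc : M.Chk R c)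
    (hP : ∀ s < M.L, c.P c.z s = M.prodP R (c.w c.z) (c.P c.z) s)
    (hQ : c.Q c.z = M.prodQ R (c.w c.z)) {i : ℕ} (hi : i < M.n) :
    c.w c.z (pt M.κ (4 * i)) = 0 ∨ c.w c.z (pt M.κ (4 * i)) = 1 := by
  have hnk := hM.hnk
  have hht : M.ht c c.z = 2 ^ M.k := by simp [ht]
  have h2 : (1 : F) + 1 = 0 := R.two hM.κ_pos
  -- the copy slot
  have e1 : c.w c.z (pt M.κ (4 * i + 1)) = c.w c.z (pt M.κ (4 * i)) := by
    have hcp : M.isCopy (4 * i + 1) = true := by
      unfold isCopy
      simp only [decide_eq_true_eq]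
      omega
    rw [rules hM hc c.z hP hQ (p := 4 * i + 1) (by omega) (by omega),
      if_neg (by rw [not_in_of_copy hcp]; simp), if_pos hcp, hprev i hi]
  have hm4 : (4 * i + 2) % 4 = 2 := by omega
  have ex2 : (4 * i + 2) ^^^ 2 = 4 * i := by rw [xor_two hm4]; omega
  have ex3 : (4 * i + 2) ^^^ 3 = 4 * i + 1 := by rw [xor_three hm4]; omega
  have e2 : c.w c.z (pt M.κ (4 * i + 2)) =
      1 + c.w c.z (pt M.κ (4 * i)) * c.w c.z (pt M.κ (4 * i)) := by
    rw [rules hM hc c.z hP hQ (p := 4 * i + 2) (by omega) (by omega),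
      if_neg (by rw [not_in_of_nand hm4]; simp), if_neg (by rw [not_copy_of_nand hm4]; simp),
      if_pos hm4, ex2, ex3, e1]
  have e3 := congrFun hc.bool (pt M.κ (4 * i + 2))
  rw [msk_pt _ _ (hM.lt (by omega)), if_pos (by simp [isNand, hm4]; omega), tr_pt, ex2, e2] at e3
  set a := c.w c.z (pt M.κ (4 * i))
  have e4 : a * (a + 1) = 0 := by
    have : (1 : F) + (1 + a * a) + a = (1 + 1) + a * (a + 1) := by ring
    rw [this, h2, zero_add] at e3
    exact e3
  rcases mul_eq_zero.1 e4 with h | h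
  · exact Or.inl h
  · right
    have : a = a + 1 + 1 := by rw [add_assoc, h2, add_zero]
    rw [this, h, zero_add]

/-- **Static theorem**, for exact products. -/
theorem stat_of_exact (hM : M.Good) (hprev : ∀ i < M.n, M.prev (4 * i + 1) = 4 * i)
    {c : Cont M.κ F} (hc : M.Chk R c)
    (hP : ∀ b, ∀ s < M.L, c.P b s = M.prodP R (c.w b) (c.P b) s)
    (hQ : ∀ b, c.Q b = M.prodQ R (c.w b)) : M.ValidC R c := by
  classical
  have hnk := hM.hnk
  have hht : M.ht c c.z = 2 ^ M.k := by simp [ht]
  have hnz : ¬ ((!c.z) = c.z) := by cases c.z <;> decide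
  have hht' : M.ht c (!c.z) = c.t := by simp [ht, hnz]
  set x : ℕ → Bool := fun i => decide (i < M.n) && decide (c.w c.z (pt M.κ (4 * i)) = 1) with hx
  have hin : ∀ p, M.isIn p = true → 4 * (p / 4) = p ∧ p / 4 < M.n := by
    intro p hp
    unfold isIn at hp
    simp only [decide_eq_true_eq] at hp
    omega
  have hz : ∀ p < 2 ^ M.k, c.w c.z (pt M.κ p) = bF F (M.val x p) := by
    intro p hp
    refine bank_eq hM hc c.z (hP c.z) (hQ c.z) (fun q _ hq => ?_) p (by rw [hht]; exact hp)
    obtain ⟨h1, h2⟩ := hin q hq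
    have e1 : M.inp c c.z = c.w c.z := by simp [inp]
    rw [e1, ← h1]
    simp only [Nat.mul_div_cancel_left _ (show 0 < 4 by norm_num), hx, h2, decide_true,
      Bool.true_and]
    rcases input_bool hM hprev hc (hP c.z) (hQ c.z) h2 with h | h
    · rw [h]; simp [bF]
    · rw [h]; simp [bF]
  have hz' : ∀ p < c.t, c.w (!c.z) (pt M.κ p) = bF F (M.val (M.nx c.z x) p) := by
    intro p hp
    have hle := hc.t_le
    refine bank_eq hM hc (!c.z) (hP _) (hQ _) (fun q hq1 hq => ?_) p (by rw [hht']; exact hp)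
    rw [hht'] at hq1
    obtain ⟨h1, h2⟩ := hin q hq
    have e1 : M.inp c (!c.z) = tr (pt M.κ (M.off c.z)) (c.w c.z) := by simp [inp, hnz]
    rw [e1, tr_pt, hz _ (Nat.xor_lt_two_pow (by omega) (hM.off_lt _))]
    unfold nx
    rw [h1]
  refine ⟨⟨c.z, x, c.t⟩, hc.t_le, fun i hi => by simp [hx, not_lt.2 hi], ?_⟩
  -- the data words
  have hw : ∀ b, ∀ p < 2 ^ M.k,
      c.w b (pt M.κ p) = bF F (M.bank ⟨c.z, x, c.t⟩ b p) := by
    intro b p hp
    unfold bank
    by_cases hb : b = c.z
    · subst hb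
      simp only [if_true]
      exact hz p hp
    · have hb' : b = !c.z := by revert hb; cases b <;> cases c.z <;> simp
      subst hb'
      simp only [if_neg hnz]
      by_cases hpt : p < c.t
      · simp only [hpt, decide_true, Bool.true_and]
        exact hz' p hpt
      · simp only [hpt, decide_false, Bool.false_and]
        rw [hc.rule (!c.z), pre_pt _ (hM.lt hp), hht', if_neg hpt]
        rfl
  have hrt : ∀ b, ∀ s < M.L, ∀ p < 2 ^ M.k, M.fw (c.w b) (c.P b) s (pt M.κ p) =
      M.rt (fun y => bF F (M.bank ⟨c.z, x, c.t⟩ b y)) s p := by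
    intro b s hs p hp
    rw [fw_pt' hM s hs.le (fun s' hs' => hP b s' (by omega)) p hp]
    exact rt_congr hM (fun q hq => hw b q hq) s hs.le p hp
  have hxlt : ∀ p < 2 ^ M.k, ∀ s < M.L, p ^^^ 2 ^ M.dir s < 2 ^ M.k := fun p hp s hs =>
    Nat.xor_lt_two_pow hp (Nat.pow_lt_pow_right (by norm_num) (hM.dir_lt s hs))
  ext1
  · rfl
  · rfl
  · funext b
    rw [dw_of_pre (hc.supp b)]
    show dw M.κ M.k _ = dw M.κ M.k (fun y => bF F (M.bank ⟨c.z, x, c.t⟩ b y))
    funext y
    unfold dw
    split_ifs with hy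
    · exact hw b _ hy
    · rfl
  · funext b s y
    show c.P b s y = if s < M.L then _ else 0
    by_cases hs : s < M.L
    · rw [if_pos hs, hP b s hs]
      unfold prodP
      congr 1
      refine congrFun (R.lde_congr fun p hp => ?_) y
      rw [e_eq_pt]
      beta_reduce
      rw [tr_pt, hrt b s hs p hp, hrt b s hs _ (hxlt p hp s hs)]
    · rw [if_neg hs, hc.P_zero b s (not_lt.1 hs)]
      rfl
  · funext b y
    rw [hQ b]
    show R.ldeW M.k _ y * R.ldeW M.k _ y = R.lde M.k _ y * R.lde M.k _ y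
    have hx2 : ∀ p < 2 ^ M.k, p ^^^ 2 < 2 ^ M.k := fun p hp =>
      Nat.xor_lt_two_pow hp (lt_of_lt_of_le (by norm_num : 2 < 2 ^ 2)
        (Nat.pow_le_pow_right (by norm_num) hM.hk))
    have hx3 : ∀ p < 2 ^ M.k, p ^^^ 3 < 2 ^ M.k := fun p hp =>
      Nat.xor_lt_two_pow hp (lt_of_lt_of_le (by norm_num : 3 < 2 ^ 2)
        (Nat.pow_le_pow_right (by norm_num) hM.hk))
    congr 1
    · refine congrFun (R.lde_congr fun p hp => ?_) y
      unfold inA
      rw [msk_pt _ _ (hM.lt hp), tr_pt, hw b _ (hx2 p hp)]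
      simp [isNand]
    · refine congrFun (R.lde_congr fun p hp => ?_) y
      unfold inB
      rw [msk_pt _ _ (hM.lt hp), tr_pt, hw b _ (hx3 p hp)]
      simp [isNand]

/-! ### The converse -/

theorem cont_w_pt (hM : M.Good) (s : State) (b : Bool) {p : ℕ} (hp : p < 2 ^ M.k) :
    (M.cont R s).w b (pt M.κ p) = bF F (M.bank s b p) := by
  show dw M.κ M.k (fun y => bF F (M.bank s b y)) (pt M.κ p) = _
  exact dw_pt _ hM.kκ hp

/-- The products of the contents of a state are exact. -/
theorem cont_P (hM : M.Good) (s : State) (b : Bool) : ∀ i < M.L,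
    (M.cont R s).P b i = M.prodP R ((M.cont R s).w b) ((M.cont R s).P b) i := by
  intro i
  induction i using Nat.strong_induction_on with
  | _ i ih =>
    intro hi
    have hxlt : ∀ p < 2 ^ M.k, p ^^^ 2 ^ M.dir i < 2 ^ M.k := fun p hp =>
      Nat.xor_lt_two_pow hp (Nat.pow_lt_pow_right (by norm_num) (hM.dir_lt i hi))
    have hrt : ∀ p < 2 ^ M.k, M.fw ((M.cont R s).w b) ((M.cont R s).P b) i (pt M.κ p) =
        M.rt (fun y => bF F (M.bank s b y)) i p := by
      intro p hp
      rw [fw_pt' hM i hi.le (fun j hj => ih j hj (by omega)) p hp]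
      exact rt_congr hM (fun q hq => cont_w_pt hM s b hq) i hi.le p hp
    funext y
    show (if i < M.L then _ else 0) = _
    rw [if_pos hi]
    unfold prodP
    congr 1
    refine congrFun (R.lde_congr fun p hp => ?_) y
    rw [e_eq_pt]
    beta_reduce
    rw [tr_pt, hrt p hp, hrt _ (hxlt p hp)]

theorem cont_Q (hM : M.Good) (s : State) (b : Bool) :
    (M.cont R s).Q b = M.prodQ R ((M.cont R s).w b) := by
  have hx2 : ∀ p < 2 ^ M.k, p ^^^ 2 < 2 ^ M.k := fun p hp =>
    Nat.xor_lt_two_pow hp (lt_of_lt_of_le (by norm_num : 2 < 2 ^ 2)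
      (Nat.pow_le_pow_right (by norm_num) hM.hk))
  have hx3 : ∀ p < 2 ^ M.k, p ^^^ 3 < 2 ^ M.k := fun p hp =>
    Nat.xor_lt_two_pow hp (lt_of_lt_of_le (by norm_num : 3 < 2 ^ 2)
      (Nat.pow_le_pow_right (by norm_num) hM.hk))
  funext y
  show R.lde M.k _ y * R.lde M.k _ y = R.ldeW M.k _ y * R.ldeW M.k _ y
  congr 1
  · refine congrFun (R.lde_congr fun p hp => ?_) y
    unfold inA
    rw [msk_pt _ _ (hM.lt hp), tr_pt, cont_w_pt hM s b (hx2 p hp)]
    simp [isNand]
  · refine congrFun (R.lde_congr fun p hp => ?_) y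
    unfold inB
    rw [msk_pt _ _ (hM.lt hp), tr_pt, cont_w_pt hM s b (hx3 p hp)]
    simp [isNand]

theorem prod_mem (hM : M.Good) (g g' : ℕ → F) :
    (fun x => R.lde M.k g x * R.lde M.k g' x) ∈ R.RS (2 ^ (M.k + 1)) := by
  have hpos : 0 < 2 ^ M.k := by positivity
  have h1 : R.lde M.k g ∈ R.RS (2 ^ M.k - 1 + 1) := by
    rw [Nat.sub_add_cancel hpos]; exact R.lde_mem hM.kκ g
  have h2 : R.lde M.k g' ∈ R.RS (2 ^ M.k - 1 + 1) := by
    rw [Nat.sub_add_cancel hpos]; exact R.lde_mem hM.kκ g'
  exact R.mono _ _ (by rw [pow_succ]; omega) (R.mul _ _ _ _ h1 h2)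

omit [Field F] in
theorem near_refl {κ : ℕ} (u : Ct κ F) : Near u u := by
  unfold Near
  simp

/-- The values of a trace obey the rules. -/
theorem val_rule (hM : M.Good) (R : RSys M.κ F) (inp : ℕ → Bool) {p : ℕ} (hp : p < 2 ^ M.k) :
    (bF F (M.val inp p) : F) = if M.isIn p then bF F (inp (p / 4)) else if M.isCopy p then
      bF F (M.val inp (M.prev p)) else if p % 4 = 2 then
      1 + bF F (M.val inp (p ^^^ 2)) * bF F (M.val inp (p ^^^ 3)) else 0 := by
  have h2 : (1 : F) + 1 = 0 := R.two hM.κ_pos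
  rcases M.kind_cases p with ⟨h1, -, -⟩ | ⟨h0, h1, -⟩ | ⟨h0, h1, -, h4⟩ | ⟨h0, h1, -, h4⟩
  · rw [if_pos h1, val_in h1]
  · rw [if_neg (by rw [h0]; simp), if_pos h1, val_copy hM hp h1]
  · rw [if_neg (by rw [h0]; simp), if_neg (by rw [h1]; simp), if_pos h4, val_nand h4]
    cases M.val inp (p ^^^ 2) <;> cases M.val inp (p ^^^ 3) <;> simp [bF, h2]
  · rw [if_neg (by rw [h0]; simp), if_neg (by rw [h1]; simp), if_neg (by omega), val_spare h4]
    rfl

/-- **Completeness of the checks.** -/
theorem chk_cont (hM : M.Good) (s : State) (hs : s.t ≤ 2 ^ M.k) : M.Chk R (M.cont R s) := by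
  have hnk := hM.hnk
  have h2 : (1 : F) + 1 = 0 := R.two hM.κ_pos
  have hnz : ¬ ((!s.z) = s.z) := by cases s.z <;> decide
  have hx2 : ∀ p < 2 ^ M.k, p ^^^ 2 < 2 ^ M.k := fun p hp => hM.xor_small hp (by norm_num)
  have hx3 : ∀ p < 2 ^ M.k, p ^^^ 3 < 2 ^ M.k := fun p hp => hM.xor_small hp (by norm_num)
  have hsupp : ∀ b, pre (2 ^ M.k) ((M.cont R s).w b) = (M.cont R s).w b := fun b =>
    pre_dw (k := M.k) (κ := M.κ) fun y => bF F (M.bank s b y)
  refine ⟨hs, hsupp, fun b i hi => ?_, fun b i hi => ?_, fun b i hi => ?_,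
    fun b => ?_, fun b => ?_, fun b => ?_, ?_⟩
  · rw [cont_P hM s b i hi]; exact prodP_mem hM _ _ _
  · rw [← cont_P hM s b i hi]; exact near_refl _
  · funext y
    show (if i < M.L then _ else 0) = _
    rw [if_neg (by omega)]
    rfl
  · rw [cont_Q hM s b]; exact prodQ_mem hM _
  · rw [← cont_Q hM s b]; exact near_refl _
  · -- the rules
    refine ext_pre (k := M.k) (hsupp b) (pre_pre ?_ _) fun p hp => ?_
    · unfold ht
      split_ifs
      · exact le_rfl
      · exact hs
    rw [cont_w_pt hM s b hp, pre_pt _ (hM.lt hp),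
      rhs_pt hM (cont_P hM s b) (cont_Q hM s b) hp]
    by_cases hb : b = s.z
    · subst hb
      have e1 : M.ht (M.cont R s) s.z = 2 ^ M.k := by
        show (if s.z = s.z then _ else _) = _
        rw [if_pos rfl]
      have e2 : ∀ q, M.bank s s.z q = M.val s.x q := fun q => by simp [bank]
      rw [e1, if_pos hp, e2, val_rule hM R s.x hp]
      rcases M.kind_cases p with ⟨h1, -, -⟩ | ⟨h0, h1, -⟩ | ⟨h0, h1, -, h4⟩ | ⟨h0, h1, -, h4⟩
      · rw [if_pos h1, if_pos h1]
        have e3 : M.inp (M.cont R s) s.z = (M.cont R s).w s.z := by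
          show (if s.z = s.z then _ else _) = _
          rw [if_pos rfl]
        rw [e3, cont_w_pt hM s s.z hp, e2, val_in h1]
      · simp only [h0, h1, Bool.false_eq_true, if_false, if_true]
        rw [cont_w_pt hM s s.z ((hM.prev_lt p hp h1).trans hp), e2]
      · simp only [h0, h1, h4, Bool.false_eq_true, if_false, if_true]
        rw [cont_w_pt hM s s.z (hx2 p hp), cont_w_pt hM s s.z (hx3 p hp), e2, e2]
      · have h5 : ¬ p % 4 = 2 := by omega
        simp only [h0, h1, h5, Bool.false_eq_true, if_false]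
    · have hb' : b = !s.z := by revert hb; cases b <;> cases s.z <;> simp
      subst hb'
      have e1 : M.ht (M.cont R s) (!s.z) = s.t := by
        show (if (!s.z) = s.z then _ else _) = _
        rw [if_neg hnz]
        rfl
      have e2 : ∀ q, M.bank s (!s.z) q = (decide (q < s.t) && M.val (M.nx s.z s.x) q) :=
        fun q => by simp [bank, hnz]
      rw [e1, e2]
      by_cases hpt : p < s.t
      · rw [if_pos hpt]
        simp only [hpt, decide_true, Bool.true_and]
        rw [val_rule hM R _ hp]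
        rcases M.kind_cases p with ⟨h1, -, -⟩ | ⟨h0, h1, -⟩ | ⟨h0, h1, -, h4⟩ | ⟨h0, h1, -, h4⟩
        · rw [if_pos h1, if_pos h1]
          have e3 : M.inp (M.cont R s) (!s.z) =
              tr (pt M.κ (M.off s.z)) ((M.cont R s).w s.z) := by
            show (if (!s.z) = s.z then _ else _) = _
            rw [if_neg hnz]
            rfl
          have h5 : 4 * (p / 4) = p := by
            unfold isIn at h1
            simp only [decide_eq_true_eq] at h1
            omega
          rw [e3, tr_pt, cont_w_pt hM s s.z (hM.xor_off _ hp)]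
          unfold nx bank
          rw [h5, if_pos rfl]
        · have hlt := hM.prev_lt p hp h1
          simp only [h0, h1, Bool.false_eq_true, if_false, if_true]
          rw [cont_w_pt hM s (!s.z) (hlt.trans hp), e2]
          simp only [hlt.trans hpt, decide_true, Bool.true_and]
        · have hl2 : p ^^^ 2 < s.t := by rw [xor_two h4]; omega
          have hl3 : p ^^^ 3 < s.t := by rw [xor_three h4]; omega
          simp only [h0, h1, h4, Bool.false_eq_true, if_false, if_true]
          rw [cont_w_pt hM s _ (hx2 p hp), cont_w_pt hM s _ (hx3 p hp), e2, e2]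
          simp only [hl2, hl3, decide_true, Bool.true_and]
        · have h5 : ¬ p % 4 = 2 := by omega
          simp only [h0, h1, h5, Bool.false_eq_true, if_false]
      · rw [if_neg hpt]
        simp only [hpt, decide_false, Bool.false_and]
        rfl
  · -- the Boolean check
    have e1 : (M.cont R s).z = s.z := rfl
    rw [e1]
    funext x
    rw [← pt_num x]
    have hlt : num x < 2 ^ M.κ := num_lt x
    rw [msk_pt _ _ hlt]
    split_ifs with h
    · simp only [Bool.and_eq_true, decide_eq_true_eq, isNand] at h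
      obtain ⟨h3, h4⟩ := h
      have hp : num x < 2 ^ M.k := by omega
      have e2 : ∀ q, M.bank s s.z q = M.val s.x q := fun q => by simp [bank]
      rw [tr_pt, cont_w_pt hM s _ hp, cont_w_pt hM s _ (hx2 _ hp), e2, e2, val_nand h3]
      have h5 : num x ^^^ 3 = 4 * (num x / 4) + 1 := by rw [xor_three h3]; omega
      have h6 : num x ^^^ 2 = 4 * (num x / 4) := by rw [xor_two h3]; omega
      have h7 : M.val s.x (num x ^^^ 3) = M.val s.x (num x ^^^ 2) := by
        have hc : M.isCopy (4 * (num x / 4) + 1) = true := by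
          unfold isCopy
          simp only [decide_eq_true_eq]
          omega
        rw [h5, val_copy hM (by omega) hc, hM.prev_inp _ (by omega), h6]
      rw [h7]
      cases M.val s.x (num x ^^^ 2) <;> simp [bF, h2]
    · rfl

end MP

variable {M : MP} {F : Type} [Field F] {R : RSys M.κ F}

/-- **[STAT]** The static checks hold only for the contents of states. -/
theorem stat (hM : M.Good) (R : RSys M.κ F) : M.Stat R := fun _ hc =>
  MP.stat_of_exact hM hM.prev_inp hc (fun b _ hs => hc.P_exact hM b hs) fun b => hc.Q_exact hM b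

/-- **[STAT']** The contents of states satisfy the static checks, with exact products. -/
theorem statC (hM : M.Good) (R : RSys M.κ F) : M.StatC R := by
  rintro c ⟨s, h1, -, rfl⟩
  exact ⟨MP.chk_cont hM s h1, fun b i hi => MP.cont_P hM s b i hi, fun b => MP.cont_Q hM s b⟩

end Vale.Agent.P330.H16
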