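import Vale.Agent.P330.H780.Stat1

/-!
# The static theorem

The static checks characterise the contents of states.
-/

namespace Vale.Agent.P330.H16

open Finset

variable {F : Type}

private theorem bF_inj_s [Field F] {a b : Bool} (h : bF F a = bF F b) : a = b := by
  cases a <;> cases b <;> simp [bF] at h ⊢

private theorem bF_and_s [Field F] (a b : Bool) : bF F (a && b) = bF F a * bF F b := by
  cases a <;> cases b <;> simp [bF]

namespace MP

variable (M : MP)

theorem rt_comp {α β : Type} (f : α → β) (w : ℕ → α) (s x : ℕ) :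
    M.rt (fun y => f (w y)) s x = f (M.rt w s x) := by
  induction s generalizing x with
  | zero => rfl
  | succ s ih =>
    simp only [rt, stg]
    split_ifs
    · exact ih _
    · exact ih _

variable {M}

theorem rt_congr {α : Type} (hM : M.Good) {w w' : ℕ → α} (h : ∀ p < 2 ^ M.k, w p = w' p) :
    ∀ s ≤ M.L, ∀ p < 2 ^ M.k, M.rt w s p = M.rt w' s p := by
  intro s
  induction s with
  | zero => exact fun _ => h
  | succ s ih =>
    intro hs p hp
    simp only [rt, stg]
    split_ifs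
    · exact ih (by omega) _ (Nat.xor_lt_two_pow hp
        (Nat.pow_lt_pow_right (by norm_num) (hM.dir_lt s (by omega))))
    · exact ih (by omega) _ hp

theorem Good.kκ (hM : M.Good) : M.k ≤ M.κ := by have := hM.hκ; omega

theorem Good.lt (hM : M.Good) {p : ℕ} (hp : p < 2 ^ M.k) : p < 2 ^ M.κ :=
  lt_of_lt_of_le hp (Nat.pow_le_pow_right (by norm_num) hM.kκ)

variable [Field F] {R : RSys M.κ F}

theorem swE_pt (hM : M.Good) {s p : ℕ} (hp : p < 2 ^ M.k) :
    M.swE R s (pt M.κ p) = bF F (M.sw s p) := R.lde_pt hM.kκ _ hp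

/-- The routed words at the slots, if the products are exact. -/
theorem fw_pt' (hM : M.Good) {w : Ct M.κ F} {P : ℕ → Ct M.κ F} : ∀ n, n ≤ M.L →
    (∀ s < n, P s = M.prodP R w P s) → ∀ p < 2 ^ M.k,
      M.fw w P n (pt M.κ p) = M.rt (fun y => w (pt M.κ y)) n p := by
  intro n
  induction n with
  | zero => exact fun _ _ _ _ => rfl
  | succ n ih =>
    intro hn hP p hp
    have hd := hM.dir_lt n (by omega)
    have hp' : p ^^^ 2 ^ M.dir n < 2 ^ M.k :=
      Nat.xor_lt_two_pow hp (Nat.pow_lt_pow_right (by norm_num) hd)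
    have ih' := ih (by omega) fun s hs => hP s (by omega)
    have e1 : P n (pt M.κ p) = bF F (M.sw n p) *
        (M.rt (fun y => w (pt M.κ y)) n p +
          M.rt (fun y => w (pt M.κ y)) n (p ^^^ 2 ^ M.dir n)) := by
      rw [hP n (by omega)]
      unfold prodP
      rw [swE_pt hM hp, R.ldeW_pt hM.kκ _ hp, e_eq_pt, tr_pt, ih' p hp, ih' _ hp']
    simp only [fw, rt, stg]
    rw [pre_pt _ (hM.lt hp), if_pos hp, ih' p hp, e1]
    cases M.sw n p
    · simp [bF]
    · simp only [bF, if_true, one_mul]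
      rw [← add_assoc, R.add_self hM.κ_pos, zero_add]

/-- The routed word at a copy slot. -/
theorem fw_copy (hM : M.Good) {w : Ct M.κ F} {P : ℕ → Ct M.κ F}
    (hP : ∀ s < M.L, P s = M.prodP R w P s) {p : ℕ} (hp : p < 2 ^ M.k) (hc : M.isCopy p = true) :
    M.fw w P M.L (pt M.κ p) = w (pt M.κ (M.prev p)) := by
  rw [fw_pt' hM M.L le_rfl hP p hp]
  exact hM.route F _ p hp hc

/-- The product of the gates at a gate slot. -/
theorem prodQ_nand (hM : M.Good) (w : Ct M.κ F) {p : ℕ} (hp : p < 2 ^ M.k) (h2 : p % 4 = 2) :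
    M.prodQ R w (pt M.κ p) = w (pt M.κ (p ^^^ 2)) * w (pt M.κ (p ^^^ 3)) := by
  unfold prodQ
  rw [R.ldeW_pt hM.kκ _ hp, R.ldeW_pt hM.kκ _ hp]
  unfold inA inB
  rw [msk_pt _ _ (hM.lt hp), msk_pt _ _ (hM.lt hp), tr_pt, tr_pt]
  simp [isNand, h2]

theorem val_in {inp : ℕ → Bool} {x : ℕ} (h : M.isIn x = true) : M.val inp x = inp (x / 4) := by
  rw [val, if_pos h]

theorem not_in_of_copy {x : ℕ} (h : M.isCopy x = true) : M.isIn x = false := by
  unfold isCopy at h
  unfold isIn
  simp only [decide_eq_true_eq, decide_eq_false_iff_not] at h ⊢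
  omega

theorem val_copy (hM : M.Good) {inp : ℕ → Bool} {x : ℕ} (hx : x < 2 ^ M.k)
    (h : M.isCopy x = true) : M.val inp x = M.val inp (M.prev x) := by
  conv_lhs => rw [val]
  rw [if_neg (by rw [not_in_of_copy h]; simp), if_pos h, dif_pos (hM.prev_lt x hx h)]

theorem not_in_of_nand {x : ℕ} (h : x % 4 = 2) : M.isIn x = false := by
  unfold isIn
  simp only [decide_eq_false_iff_not]
  omega

theorem not_copy_of_nand {x : ℕ} (h : x % 4 = 2) : M.isCopy x = false := by
  unfold isCopy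
  simp only [decide_eq_false_iff_not]
  omega

theorem xor_two {x : ℕ} (h : x % 4 = 2) : x ^^^ 2 = x - 2 := by
  obtain ⟨q, rfl⟩ : ∃ q, x = 2 ^ 2 * q + 2 := ⟨x / 4, by omega⟩
  have e : (2 ^ 2 * q + 2) ^^^ 2 = 2 ^ 2 * q + 0 := by
    apply Nat.eq_of_testBit_eq
    intro j
    rw [Nat.testBit_xor, Nat.testBit_two_pow_mul_add _ (by norm_num),
      Nat.testBit_two_pow_mul_add _ (by norm_num)]
    by_cases hj : j < 2
    · rw [if_pos hj, if_pos hj, Bool.xor_self, Nat.zero_testBit]
    · rw [if_neg hj, if_neg hj, Nat.testBit_lt_two_pow (x := 2) (i := j)]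
      · simp
      · exact lt_of_lt_of_le (by norm_num : 2 < 2 ^ 2) (Nat.pow_le_pow_right (by norm_num)
          (not_lt.1 hj))
  rw [e]
  omega

theorem xor_three {x : ℕ} (h : x % 4 = 2) : x ^^^ 3 = x - 1 := by
  obtain ⟨q, rfl⟩ : ∃ q, x = 2 ^ 2 * q + 2 := ⟨x / 4, by omega⟩
  have e : (2 ^ 2 * q + 2) ^^^ 3 = 2 ^ 2 * q + 1 := by
    apply Nat.eq_of_testBit_eq
    intro j
    rw [Nat.testBit_xor, Nat.testBit_two_pow_mul_add _ (by norm_num),
      Nat.testBit_two_pow_mul_add _ (by norm_num)]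
    by_cases hj : j < 2
    · rw [if_pos hj, if_pos hj]
      interval_cases j <;> decide
    · rw [if_neg hj, if_neg hj, Nat.testBit_lt_two_pow (x := 3) (i := j)]
      · simp
      · exact lt_of_lt_of_le (by norm_num : 3 < 2 ^ 2) (Nat.pow_le_pow_right (by norm_num)
          (not_lt.1 hj))
  rw [e]
  omega

theorem val_nand {inp : ℕ → Bool} {x : ℕ} (h : x % 4 = 2) :
    M.val inp x = !(M.val inp (x ^^^ 2) && M.val inp (x ^^^ 3)) := by
  conv_lhs => rw [val]
  rw [if_neg (by rw [not_in_of_nand h]; simp), if_neg (by rw [not_copy_of_nand h]; simp),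
    if_pos h, xor_two h, xor_three h]

theorem val_spare {inp : ℕ → Bool} {x : ℕ} (h : x % 4 = 3) : M.val inp x = false := by
  rw [val]
  have h1 : M.isIn x = false := by
    unfold isIn
    simp only [decide_eq_false_iff_not]
    omega
  have h2 : M.isCopy x = false := by
    unfold isCopy
    simp only [decide_eq_false_iff_not]
    omega
  rw [if_neg (by rw [h1]; simp), if_neg (by rw [h2]; simp), if_neg (by omega)]

theorem kind_cases (x : ℕ) :
    (M.isIn x = true ∧ M.isCopy x = false ∧ isNand x = false) ∨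
    (M.isIn x = false ∧ M.isCopy x = true ∧ isNand x = false) ∨
    (M.isIn x = false ∧ M.isCopy x = false ∧ isNand x = true ∧ x % 4 = 2) ∨
    (M.isIn x = false ∧ M.isCopy x = false ∧ isNand x = false ∧ x % 4 = 3) := by
  unfold isIn isCopy isNand
  simp only [decide_eq_true_eq, decide_eq_false_iff_not]
  omega

/-- The right hand side of the rule at a slot. -/
theorem rhs_pt (hM : M.Good) {c : Cont M.κ F} {b : Bool} {u : Ct M.κ F}
    (hP : ∀ s < M.L, c.P b s = M.prodP R (c.w b) (c.P b) s) (hQ : c.Q b = M.prodQ R (c.w b))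
    {p : ℕ} (hp : p < 2 ^ M.k) :
    M.rhs c b u (pt M.κ p) = if M.isIn p then u (pt M.κ p) else if M.isCopy p then
      c.w b (pt M.κ (M.prev p)) else if p % 4 = 2 then
      1 + c.w b (pt M.κ (p ^^^ 2)) * c.w b (pt M.κ (p ^^^ 3)) else 0 := by
  unfold rhs
  rw [msk_pt _ _ (hM.lt hp), msk_pt _ _ (hM.lt hp), msk_pt _ _ (hM.lt hp)]
  rcases M.kind_cases p with ⟨h1, h2, h3⟩ | ⟨h1, h2, h3⟩ | ⟨h1, h2, h3, h4⟩ | ⟨h1, h2, h3, h4⟩
  · simp [h1, h2, h3]
  · simp only [h1, h2, h3, Bool.false_eq_true, if_false, if_true, add_zero, zero_add]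
    exact fw_copy hM hP hp h2
  · simp only [h1, h2, h3, Bool.false_eq_true, if_false, if_true, zero_add, h4]
    rw [pre_pt _ (hM.lt hp), if_pos hp, hQ, prodQ_nand hM _ hp h4]
  · simp [h1, h2, h3, h4]

/-- The slots below `h` of a bank whose input slots hold `inp` and whose other slots obey the
rules. -/
theorem slots_eq (hM : M.Good) {w : Ct M.κ F} {inp : ℕ → Bool} {h : ℕ} (hh : h ≤ 2 ^ M.k)
    (hin : ∀ p < h, M.isIn p = true → w (pt M.κ p) = bF F (inp (p / 4)))
    (hcopy : ∀ p < h, M.isCopy p = true → w (pt M.κ p) = w (pt M.κ (M.prev p)))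
    (hnand : ∀ p < h, p % 4 = 2 →
      w (pt M.κ p) = 1 + w (pt M.κ (p ^^^ 2)) * w (pt M.κ (p ^^^ 3)))
    (hspare : ∀ p < h, p % 4 = 3 → w (pt M.κ p) = 0) (h2 : (1 : F) + 1 = 0) :
    ∀ p < h, w (pt M.κ p) = bF F (M.val inp p) := by
  intro p
  induction p using Nat.strong_induction_on with
  | _ p ih =>
    intro hp
    rcases M.kind_cases p with ⟨h1, -, -⟩ | ⟨-, h1, -⟩ | ⟨-, -, -, h1⟩ | ⟨-, -, -, h1⟩
    · rw [hin p hp h1, val_in h1]
    · have hlt := hM.prev_lt p (by omega) h1
      rw [hcopy p hp h1, val_copy hM (by omega) h1]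
      exact ih _ hlt (by omega)
    · rw [hnand p hp h1, val_nand h1]
      rw [ih (p ^^^ 2) (by rw [xor_two h1]; omega) (by rw [xor_two h1]; omega),
        ih (p ^^^ 3) (by rw [xor_three h1]; omega) (by rw [xor_three h1]; omega)]
      cases M.val inp (p ^^^ 2) <;> cases M.val inp (p ^^^ 3) <;> simp [bF, h2]
    · rw [hspare p hp h1, val_spare h1]
      rfl

/-- The rules of the slots below the height of a bank. -/
theorem rules (hM : M.Good) {c : Cont M.κ F} (hc : M.Chk R c) (b : Bool)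
    (hP : ∀ s < M.L, c.P b s = M.prodP R (c.w b) (c.P b) s) (hQ : c.Q b = M.prodQ R (c.w b))
    {p : ℕ} (hp : p < 2 ^ M.k) (hp' : p < M.ht c b) :
    c.w b (pt M.κ p) = if M.isIn p then M.inp c b (pt M.κ p) else if M.isCopy p then
      c.w b (pt M.κ (M.prev p)) else if p % 4 = 2 then
      1 + c.w b (pt M.κ (p ^^^ 2)) * c.w b (pt M.κ (p ^^^ 3)) else 0 := by
  conv_lhs => rw [hc.rule b]
  rw [pre_pt _ (hM.lt hp), if_pos hp', rhs_pt hM hP hQ hp]

theorem ht_le {c : Cont M.κ F} (hc : M.Chk R c) (b : Bool) : M.ht c b ≤ 2 ^ M.k := by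
  unfold ht
  split_ifs
  · exact le_rfl
  · exact hc.t_le

/-- The slots of a bank, given its input. -/
theorem bank_eq (hM : M.Good) {c : Cont M.κ F} (hc : M.Chk R c) (b : Bool)
    (hP : ∀ s < M.L, c.P b s = M.prodP R (c.w b) (c.P b) s) (hQ : c.Q b = M.prodQ R (c.w b))
    {inp : ℕ → Bool}
    (hin : ∀ p < M.ht c b, M.isIn p = true → M.inp c b (pt M.κ p) = bF F (inp (p / 4))) :
    ∀ p < M.ht c b, c.w b (pt M.κ p) = bF F (M.val inp p) := by
  have hle := ht_le hc b
  refine slots_eq hM hle (fun p hp h => ?_) (fun p hp h => ?_) (fun p hp h => ?_)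
    (fun p hp h => ?_) (R.two hM.κ_pos)
  · rw [rules hM hc b hP hQ (by omega) hp, if_pos h]
    exact hin p hp h
  · rw [rules hM hc b hP hQ (by omega) hp, if_neg (by rw [not_in_of_copy h]; simp), if_pos h]
  · rw [rules hM hc b hP hQ (by omega) hp, if_neg (by rw [not_in_of_nand h]; simp),
      if_neg (by rw [not_copy_of_nand h]; simp), if_pos h]
  · have h1 : M.isIn p = false := by
      unfold isIn
      simp only [decide_eq_false_iff_not]
      omega
    have h2 : M.isCopy p = false := by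
      unfold isCopy
      simp only [decide_eq_false_iff_not]
      omega
    rw [rules hM hc b hP hQ (by omega) hp, if_neg (by rw [h1]; simp), if_neg (by rw [h2]; simp),
      if_neg (by omega)]

end MP

end Vale.Agent.P330.H16
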