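import Vale.Agent.P330.H244.TopG
import Vale.Agent.P330.H743.Enc

/-!
# The checks of the content program

For contents `σ` of the names with the equations of the program, and for arbitrary base contents:
the equalities `PP.eqs` are `H743.Ok` of the base contents, the products `PP.prods` are
`H743.OkN`, or `H743.OkE` in the exact form.
-/

namespace Vale.Agent.P330.H244

open Finset H16

/-- The base contents of an assignment. -/
abbrev bc {κ : ℕ} {F : Type} (σ : Nm → Ct κ F) : BC κ F :=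
  ⟨σ .z, fun j => σ (.t j), fun b => σ (.w b), fun b s => σ (.P b s), fun b => σ (.Q b)⟩

variable {F : Type} [Field F] {M : MP} {R : RSys M.κ F} {pub : ℕ → Ct M.κ F}
  {σ : Nm → Ct M.κ F}

section

variable (hM : M.Good) (h : (M.pp R).Eqs M.off R pub σ)

include hM h

theorem scalB : PP.Scal (M.pp R) pub σ (σ .z 0) fun j => σ (.t j) 0 := h.scal hM.κ_pos

theorem zb_eq (b : Bool) : σ (.zb b) 0 = H743.zb M (bc σ) b := by
  have hS := scalB hM h
  cases b
  · rw [hS.zb0]; rfl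
  · rw [hS.zb1]; rfl

theorem hb_eq (b : Bool) {j : ℕ} (hj : j < M.k + 1) :
    σ (.hb b j) 0 = H743.hb M (bc σ) b j := by
  have hS := scalB hM h
  cases b
  · rw [hS.hb0 j hj]; rfl
  · rw [hS.hb1 j hj]; rfl

theorem pb_eq {j : ℕ} (hj : j < M.k + 1) :
    σ (.pb j) 0 = bF F ((4 * M.n).testBit j) := by
  rw [(scalB hM h).pb j hj]

theorem inpM_eq (b : Bool) : M.inpM σ b = H743.inpB M (bc σ) b := by
  funext x
  unfold MP.inpM H743.inpB
  rw [zb_eq hM h, zb_eq hM h]

omit hM in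
theorem fL_eq (b : Bool) : σ (.f b M.L) = M.fw (σ (.w b)) (fun s => σ (.P b s)) M.L :=
  MP.f_eq (h.eR b) le_rfl

/-- The right hand side of the rule, for arbitrary base contents. -/
theorem V_raw (b : Bool) : σ (.V b) = H743.VB M (bc σ) b := by
  have hκ := hM.κ_pos
  funext x
  have hV := (h.eV b).addE (o := .V b) (as := [.v3 b, .v4 b, .v5 b, .v7 b])
    (by simp [PP.prV]) x
  simp only [List.map_cons, List.map_nil, List.sum_cons, List.sum_nil, add_zero] at hV
  rw [hV, MP.v3_eq (h.eV b) hκ hM.hnk (fun j hj => pb_eq hM h hj), MP.v2_eq (h.eV b),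
    MP.v4_eq (h.eV b), MP.v5_eq (h.eV b),
    MP.v7_eq (h.eV b) (scalB hM h).one (MP.hQ_eq (h.eG1 b)), fL_eq h, inpM_eq hM h]
  unfold H743.VB
  ring

theorem pV_raw (b : Bool) :
    σ (.pV b) = preOp M.k (H743.hb M (bc σ) b) (H743.VB M (bc σ) b) := by
  have h1 := (h.eV b).unE (o := .pV b) (m := .pre) (a := .V b)
    (as := (List.range (M.k + 1)).map (.hb b)) (by simp [PP.prV])
  rw [h1, V_raw hM h]
  refine preOp_congr (fun j hj => ?_) _
  rw [List.map_map, getD_map_range _ _ j hj]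
  exact hb_eq hM h b hj

theorem c4_raw (b : Bool) :
    σ (.c4 b) = fun x => H743.zb M (bc σ) b * pre (4 * M.n) (msk isNand fun y =>
      1 + σ (.w b) y + tr (e M.κ 1) (σ (.w b)) y) x := by
  have hκ := hM.κ_pos
  rw [MP.c4_eq (h.eV b) hκ hM.hnk (fun j hj => pb_eq hM h hj) (scalB hM h).one
    (MP.A1_eq (h.eG1 b)), zb_eq hM h]
  funext x
  rw [MP.msk_boolChk, e_eq_pt, pow_one]

end

/-! ### Unpacking the lists -/

section lists

variable {F : Type} {p : PP F} {κ : ℕ} {σ : Nm → Ct κ F}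

theorem forall_flatMap {A B : Type*} {l : List A} {f : A → List B} {P : B → Prop} :
    (∀ q ∈ l.flatMap f, P q) ↔ ∀ a ∈ l, ∀ q ∈ f a, P q := by
  simp only [List.mem_flatMap]
  constructor
  · intro h a ha q hq
    exact h q ⟨a, ha, hq⟩
  · rintro h q ⟨a, ha, hq⟩
    exact h a ha q hq

theorem eqs1_iff : (∀ q ∈ p.eqs1, σ q.1 = σ q.2) ↔
    (σ .z = σ .zc ∧ σ .zz = σ .zc) ∧
      (∀ j < p.k + 1, σ (.t j) = σ (.tc j) ∧ σ (.tt j) = σ (.tc j)) ∧
        ∀ j < p.k, σ (.tk j) = σ .zero := by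
  simp only [PP.eqs1, List.forall_mem_append, forall_flatMap, List.forall_mem_cons,
    List.forall_mem_map, List.mem_range, List.not_mem_nil, false_imp_iff, implies_true, and_true]

theorem eqs2_iff {b : Bool} : (∀ q ∈ p.eqs2 b, σ q.1 = σ q.2) ↔
    (∀ s < p.L, ∀ j < p.κ, p.k < j → σ (.nP b s j) = σ .zero) ∧
      ∀ j < p.κ, p.k < j → σ (.nQ b j) = σ .zero := by
  have h1 : ∀ (n : Nm) (j : ℕ), σ (if p.k < j then n else Nm.zero) = σ .zero ↔
      (p.k < j → σ n = σ .zero) := by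
    intro n j
    by_cases hj : p.k < j <;> simp [hj]
  simp only [PP.eqs2, List.forall_mem_append, forall_flatMap, List.forall_mem_map,
    List.mem_range, h1]

theorem eqs3_iff {b : Bool} : (∀ q ∈ PP.eqs3 b, σ q.1 = σ q.2) ↔
    σ (.hw b) = σ (.w b) ∧ σ (.w b) = σ (.pV b) ∧ σ (.c4 b) = σ .zero := by
  simp only [PP.eqs3, List.forall_mem_cons, List.not_mem_nil, false_imp_iff, implies_true,
    and_true]

theorem eqs_iff' : (∀ q ∈ p.eqs, σ q.1 = σ q.2) ↔
    (∀ q ∈ p.eqs1, σ q.1 = σ q.2) ∧ (∀ b, ∀ q ∈ p.eqs2 b, σ q.1 = σ q.2) ∧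
      ∀ b, ∀ q ∈ PP.eqs3 b, σ q.1 = σ q.2 := by
  simp only [PP.eqs, List.forall_mem_append, Bool.forall_bool]
  tauto

theorem prods_iff' {P : Nm × Nm × Nm → Prop} : (∀ q ∈ p.prods, P q) ↔
    (∀ b, ∀ s < p.L, P (.P b s, .sw s, .LY b s)) ∧ ∀ b, P (.Q b, .LA b, .LB b) := by
  simp only [PP.prods, List.forall_mem_append, List.forall_mem_map, List.mem_range,
    List.forall_mem_cons, List.not_mem_nil, false_imp_iff, implies_true, and_true,
    Bool.forall_bool]
  tauto

end lists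

section main

variable (hM : M.Good) (h : (M.pp R).Eqs M.off R pub σ)

include hM h

/-- **The equalities of the program**, in closed form. -/
theorem eqs_iff : (∀ q ∈ (M.pp R).eqs, σ q.1 = σ q.2) ↔ H743.Ok M R (bc σ) := by
  have hS := scalB hM h
  rw [eqs_iff', eqs1_iff]
  simp only [eqs2_iff, eqs3_iff]
  constructor
  · rintro ⟨⟨⟨h1, h2⟩, h3, h4⟩, h5, h6⟩
    rw [hS.zc] at h1 h2
    rw [hS.zz] at h2
    refine ⟨h1, congrFun h2 0, fun j hj => ?_, fun j hj => ?_, fun j hj => ?_,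
      fun b s hs j hj hjκ x => ?_, fun b j hj hjκ x => ?_, fun b => ?_, fun b => ?_,
      fun b x => ?_⟩
    · have := (h3 j (Nat.lt_succ_of_le hj)).1
      rw [hS.tc j (Nat.lt_succ_of_le hj)] at this
      exact this
    · have := (h3 j (Nat.lt_succ_of_le hj)).2
      rw [hS.tc j (Nat.lt_succ_of_le hj), hS.tt j (Nat.lt_succ_of_le hj)] at this
      exact congrFun this 0
    · have := h4 j hj
      rw [hS.tk j (Nat.lt_succ_of_lt hj), hS.zero] at this
      exact congrFun this 0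
    · have := (h5 b).1 s hs j hjκ hj
      rw [MP.nP_eq (h.eR b) hs hjκ, hS.zero] at this
      exact congrFun this x
    · have := (h5 b).2 j hjκ hj
      rw [MP.nQ_eq (h.eG1 b) (h.eG2 b) hjκ, hS.zero] at this
      exact congrFun this x
    · have := (h6 b).1
      rw [MP.hw_eq (h.eV b)] at this
      exact this
    · rw [← pV_raw hM h]
      exact (h6 b).2.1
    · have := (h6 b).2.2
      rw [c4_raw hM h, hS.zero] at this
      exact congrFun this x
  · intro hO
    refine ⟨⟨⟨?_, ?_⟩, fun j hj => ⟨?_, ?_⟩, fun j hj => ?_⟩, fun b =>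
      ⟨fun s hs j hjκ hj => ?_, fun j hjκ hj => ?_⟩, fun b => ⟨?_, ?_, ?_⟩⟩
    · rw [hS.zc]; exact hO.zc
    · rw [hS.zc, hS.zz]; funext _; exact hO.zz
    · rw [hS.tc j hj]; exact hO.tc j (Nat.le_of_lt_succ hj)
    · rw [hS.tc j hj, hS.tt j hj]; funext _; exact hO.tt j (Nat.le_of_lt_succ hj)
    · rw [hS.tk j (Nat.lt_succ_of_lt hj), hS.zero]; funext _; exact hO.tk j hj
    · rw [MP.nP_eq (h.eR b) hs hjκ, hS.zero]; funext x; exact hO.nP b s hs j hj hjκ x
    · rw [MP.nQ_eq (h.eG1 b) (h.eG2 b) hjκ, hS.zero]; funext x; exact hO.nQ b j hj hjκ x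
    · rw [MP.hw_eq (h.eV b)]; exact hO.hw b
    · rw [pV_raw hM h]; exact hO.rule b
    · rw [c4_raw hM h, hS.zero]; funext x; exact hO.bool b x

variable (hpub : ∀ s < M.L, pub (s + 1) = M.swE R s)

include hpub

theorem prP_eq (b : Bool) {s : ℕ} (hs : s < M.L) :
    (fun x => σ (.sw s) x * σ (.LY b s) x) = M.prodP R (σ (.w b)) (fun s => σ (.P b s)) s :=
  MP.prodP_eq (h.eR b) hM.k_le hM.κ_pos hs (by rw [(scalB hM h).sw s hs]; exact hpub s hs)

omit hpub in
theorem prQ_eq (b : Bool) :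
    (fun x => σ (.LA b) x * σ (.LB b) x) = M.prodQ R (σ (.w b)) :=
  MP.prodQ_eq (h.eG1 b) hM.k_le hM.κ_pos

/-- **The products of the program**, at most points. -/
theorem prods_iff : (∀ q ∈ (M.pp R).prods, MP.Near (σ q.1) fun y => σ q.2.1 y * σ q.2.2 y) ↔
    H743.OkN M R (bc σ) := by
  rw [prods_iff' (P := fun q => MP.Near (σ q.1) fun y => σ q.2.1 y * σ q.2.2 y)]
  constructor
  · rintro ⟨h1, h2⟩
    refine ⟨fun b s hs => ?_, fun b => ?_⟩
    · have := h1 b s hs
      rw [prP_eq hM h hpub b hs] at this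
      exact this
    · have := h2 b
      rw [prQ_eq hM h b] at this
      exact this
  · intro hO
    refine ⟨fun b s hs => ?_, fun b => ?_⟩
    · show MP.Near (σ (.P b s)) fun x => σ (.sw s) x * σ (.LY b s) x
      rw [prP_eq hM h hpub b hs]
      exact hO.P b s hs
    · show MP.Near (σ (.Q b)) fun x => σ (.LA b) x * σ (.LB b) x
      rw [prQ_eq hM h b]
      exact hO.Q b

/-- **The products of the program**, exactly. -/
theorem prodsE_iff : (∀ q ∈ (M.pp R).prods, ∀ y, σ q.1 y = σ q.2.1 y * σ q.2.2 y) ↔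
    H743.OkE M R (bc σ) := by
  rw [prods_iff' (P := fun q => ∀ y, σ q.1 y = σ q.2.1 y * σ q.2.2 y)]
  constructor
  · rintro ⟨h1, h2⟩
    refine ⟨fun b s hs => ?_, fun b => ?_⟩
    · have := funext (h1 b s hs)
      rw [prP_eq hM h hpub b hs] at this
      exact this
    · have := funext (h2 b)
      rw [prQ_eq hM h b] at this
      exact this
  · intro hO
    refine ⟨fun b s hs y => ?_, fun b y => ?_⟩
    · have := congrFun (hO.P b s hs) y
      rw [← prP_eq hM h hpub b hs] at this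
      exact this
    · have := congrFun (hO.Q b) y
      rw [← prQ_eq hM h b] at this
      exact this

/-- **Soundness**: contents of the names with the equalities, and with the products at most
points, have base contents of a `Cont` with the static checks. -/
theorem sound (h1 : ∀ q ∈ (M.pp R).eqs, σ q.1 = σ q.2)
    (h2 : ∀ q ∈ (M.pp R).prods, MP.Near (σ q.1) fun y => σ q.2.1 y * σ q.2.2 y) :
    ∃ c, M.Chk R c ∧ H743.Agr M.k M.L (bc σ) (H743.ofC c) :=
  H743.Ok.chk hM ((eqs_iff hM h).1 h1) ((prods_iff hM h hpub).1 h2)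

/-- **Completeness**: for the contents of a `Cont` with the static checks and exact products, the
equalities and the products hold. -/
theorem complete {c : Cont M.κ F} (hA : H743.Agr M.k M.L (bc σ) (H743.ofC c))
    (hc : M.Chk R c) (hP : ∀ b, ∀ s < M.L, c.P b s = M.prodP R (c.w b) (c.P b) s)
    (hQ : ∀ b, c.Q b = M.prodQ R (c.w b)) :
    (∀ q ∈ (M.pp R).eqs, σ q.1 = σ q.2) ∧
      ∀ q ∈ (M.pp R).prods, ∀ y, σ q.1 y = σ q.2.1 y * σ q.2.2 y :=
  ⟨(eqs_iff hM h).2 (hA.ok (H743.ok_of_chk hM hc)),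
    (prodsE_iff hM h hpub).2 (hA.okE ⟨hP, hQ⟩)⟩

end main

/-- The names hold the contents of `c` if and only if the base contents agree. -/
theorem agr_of_holds {c : Cont M.κ F} (hc : HoldsIn M σ c) :
    H743.Agr M.k M.L (bc σ) (H743.ofC c) :=
  ⟨hc.z, fun j hj => hc.t j (Nat.lt_succ_of_le hj), hc.w, hc.P, hc.Q⟩

theorem holds_of_agr {c : Cont M.κ F} (hA : H743.Agr M.k M.L (bc σ) (H743.ofC c)) :
    HoldsIn M σ c :=
  ⟨hA.z, fun j hj => hA.t j (Nat.le_of_lt_succ hj), hA.w, hA.P, hA.Q⟩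

end Vale.Agent.P330.H244
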