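import Vale.Agent.P330.H780.TopF
import Vale.Agent.P330.H244.Base

/-!
# The content program: routing, gates and rule of a bank

Closed forms of the registers of the groups `prR`, `prG1`, `prG2`, `prV` of the content program
(`H16.Top`), for arbitrary base contents.
-/

namespace Vale.Agent.P330.H16

open Finset

section

variable {κ : ℕ} {F : Type} [Field F] {N : Type}

/-- The value of a sum of registers. -/
theorem MP.lcV_add (σ : N → Ct κ F) (as : List N) (x : V2 κ) :
    lcV (as.map fun _ => (1 : F)) (as.map σ) x = (as.map fun a => σ a x).sum := by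
  induction as with
  | nil => simp [lcV]
  | cons a as ih =>
    simp only [List.map_cons, lcV, List.sum_cons, one_mul]
    rw [ih]

variable {k : ℕ} {off : Bool → ℕ} {R : RSys κ F} {pub : ℕ → Ct κ F} {σ : Nm → Ct κ F}
  {l : List (Cmd Nm (Kd F))}

theorem Sol.mono {l' : List (Cmd Nm (Kd F))} (h : Sol k off R pub σ l) (hl : ∀ c ∈ l', c ∈ l) :
    Sol k off R pub σ l' := fun c hc => h c (hl c hc)

theorem Sol.addE (h : Sol k off R pub σ l) {o : Nm} {as : List Nm}
    (hc : (PP.add o as : Cmd Nm (Kd F)) ∈ l) (x : V2 κ) :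
    σ o x = (as.map fun a => σ a x).sum := by
  have := h _ hc
  simp only [PP.add, kdv] at this
  rw [this, MP.lcV_add]

theorem Sol.unE (h : Sol k off R pub σ l) {o a : Nm} {m : UM} {as : List Nm}
    (hc : (⟨o, .un m, a :: as⟩ : Cmd Nm (Kd F)) ∈ l) :
    σ o = opr k off R m (as.map fun a => σ a 0) (σ a) := by
  have := h _ hc
  simp only [kdv, List.map_cons, List.tail_cons, List.headD_cons, List.map_map] at this
  exact this

theorem Sol.smulE (h : Sol k off R pub σ l) {o a b : Nm}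
    (hc : (⟨o, .smul, [a, b]⟩ : Cmd Nm (Kd F)) ∈ l) :
    σ o = fun x => σ a 0 * σ b x := h _ hc

theorem Sol.pubE (h : Sol k off R pub σ l) {o : Nm} {p : ℕ}
    (hc : (⟨o, .pub p, []⟩ : Cmd Nm (Kd F)) ∈ l) : σ o = pub p := h _ hc

end

namespace MP

variable {F : Type} [Field F] {M : MP} {R : RSys M.κ F} {pub : ℕ → Ct M.κ F}
  {σ : Nm → Ct M.κ F} {b : Bool}

section routing

variable (h : Sol M.k M.off R pub σ ((M.pp R).prR b))

include h

theorem f_zero : σ (.f b 0) = σ (.w b) := by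
  funext x
  have := h.addE (o := .f b 0) (as := [.w b]) (by simp [PP.prR]) x
  simpa using this

theorem solR1 {s : ℕ} (hs : s < M.L) : Sol M.k M.off R pub σ ((M.pp R).prR1 b s) :=
  h.mono fun c hc => by
    simp only [PP.prR, List.mem_cons, List.mem_flatMap, List.mem_range, List.mem_append]
    exact Or.inr ⟨s, hs, Or.inl hc⟩

theorem solR2 {s : ℕ} (hs : s < M.L) : Sol M.k M.off R pub σ ((M.pp R).prR2 b s) :=
  h.mono fun c hc => by
    simp only [PP.prR, List.mem_cons, List.mem_flatMap, List.mem_range, List.mem_append]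
    exact Or.inr ⟨s, hs, Or.inr hc⟩

theorem Y_eq {s : ℕ} (hs : s < M.L) :
    σ (.Y b s) = fun y => σ (.f b s) y + tr (e M.κ (M.dir s)) (σ (.f b s)) y := by
  have h1 := solR1 h hs
  have hT := h1.unE (o := .T b s) (m := .tr (M.dir s)) (a := .f b s) (as := [])
    (by simp [PP.prR1, pp])
  funext x
  have hY := h1.addE (o := .Y b s) (as := [.f b s, .T b s]) (by simp [PP.prR1]) x
  simp only [List.map_cons, List.map_nil, List.sum_cons, List.sum_nil, add_zero] at hY
  rw [hY, hT]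
  rfl

theorem f_succ {s : ℕ} (hs : s < M.L) :
    σ (.f b (s + 1)) = fun x => σ (.f b s) x + pre (2 ^ M.k) (σ (.P b s)) x := by
  have h1 := solR1 h hs
  have hP := h1.unE (o := .hP b s) (m := .hh) (a := .P b s) (as := []) (by simp [PP.prR1])
  funext x
  have hf := h1.addE (o := .f b (s + 1)) (as := [.f b s, .hP b s]) (by simp [PP.prR1]) x
  simp only [List.map_cons, List.map_nil, List.sum_cons, List.sum_nil, add_zero] at hf
  rw [hf, hP]
  rfl

/-- The routed words. -/
theorem f_eq {s : ℕ} (hs : s ≤ M.L) :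
    σ (.f b s) = M.fw (σ (.w b)) (fun s => σ (.P b s)) s := by
  induction s with
  | zero => exact f_zero h
  | succ s ih =>
    rw [f_succ h (Nat.lt_of_succ_le hs), ih (by omega)]
    rfl

theorem LY_eq (hκ : M.k ≤ M.κ) (hκ0 : 0 < M.κ) {s : ℕ} (hs : s < M.L) :
    σ (.LY b s) = R.ldeW M.k fun y => M.fw (σ (.w b)) (fun s => σ (.P b s)) s y +
      tr (e M.κ (M.dir s)) (M.fw (σ (.w b)) (fun s => σ (.P b s)) s) y := by
  have h1 := solR1 h hs
  have hL := h1.unE (o := .LY b s) (m := .lde) (a := .Y b s) (as := []) (by simp [PP.prR1])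
  rw [hL]
  show ldeOp R M.k (σ (.Y b s)) = _
  rw [ldeOp_eq R hκ0 hκ, Y_eq h hs, f_eq h hs.le]

/-- What the product of stage `s` has to be. -/
theorem prodP_eq (hκ : M.k ≤ M.κ) (hκ0 : 0 < M.κ) {s : ℕ} (hs : s < M.L)
    (hsw : σ (.sw s) = M.swE R s) :
    (fun x => σ (.sw s) x * σ (.LY b s) x) =
      M.prodP R (σ (.w b)) (fun s => σ (.P b s)) s := by
  rw [LY_eq h hκ hκ0 hs, hsw]
  rfl

/-- The test of membership of the product of stage `s`. -/
theorem nP_eq {s : ℕ} (hs : s < M.L) {j : ℕ} (hj : j < M.κ) :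
    σ (.nP b s j) = fun x => bx j x * invOp R (σ (.P b s)) x := by
  have h1 := solR1 h hs
  have h2 := solR2 h hs
  have hm := h1.unE (o := .mP b s) (m := .inv) (a := .P b s) (as := []) (by simp [PP.prR1])
  have hn := h2.unE (o := .nP b s j) (m := .mx j) (a := .mP b s) (as := [])
    (by simp [PP.prR2, pp]; exact hj)
  rw [hn, hm]
  rfl

end routing

section gates

variable (h : Sol M.k M.off R pub σ (PP.prG1 b))

include h

theorem A1_eq : σ (.A1 b) = tr (pt M.κ 2) (σ (.w b)) := by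
  have h1 := h.unE (o := .A1 b) (m := .tr 1) (a := .w b) (as := []) (by simp [PP.prG1])
  rw [h1]
  show tr (e M.κ 1) (σ (.w b)) = _
  rw [e_eq_pt, pow_one]

theorem A2_eq : σ (.A2 b) = M.inA (σ (.w b)) := by
  have h1 := h.unE (o := .A2 b) (m := .nand) (a := .A1 b) (as := []) (by simp [PP.prG1])
  rw [h1, A1_eq h]
  rfl

theorem B1_eq : σ (.B1 b) = tr (pt M.κ 3) (σ (.w b)) := by
  have h1 := h.unE (o := .B1 b) (m := .tr 0) (a := .A1 b) (as := []) (by simp [PP.prG1])
  rw [h1, A1_eq h]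
  funext x
  show tr (e M.κ 0) (tr (pt M.κ 2) (σ (.w b))) x = _
  unfold tr
  congr 1
  rw [show (3 : ℕ) = 1 ^^^ 2 from rfl, pt_xor, e_eq_pt, pow_zero, add_assoc]

theorem B2_eq : σ (.B2 b) = M.inB (σ (.w b)) := by
  have h1 := h.unE (o := .B2 b) (m := .nand) (a := .B1 b) (as := []) (by simp [PP.prG1])
  rw [h1, B1_eq h]
  rfl

theorem LA_eq (hκ : M.k ≤ M.κ) (hκ0 : 0 < M.κ) :
    σ (.LA b) = R.ldeW M.k (M.inA (σ (.w b))) := by
  have h1 := h.unE (o := .LA b) (m := .lde) (a := .A2 b) (as := []) (by simp [PP.prG1])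
  rw [h1, ← A2_eq h]
  exact ldeOp_eq R hκ0 hκ _

theorem LB_eq (hκ : M.k ≤ M.κ) (hκ0 : 0 < M.κ) :
    σ (.LB b) = R.ldeW M.k (M.inB (σ (.w b))) := by
  have h1 := h.unE (o := .LB b) (m := .lde) (a := .B2 b) (as := []) (by simp [PP.prG1])
  rw [h1, ← B2_eq h]
  exact ldeOp_eq R hκ0 hκ _

/-- What the product of the gates has to be. -/
theorem prodQ_eq (hκ : M.k ≤ M.κ) (hκ0 : 0 < M.κ) :
    (fun x => σ (.LA b) x * σ (.LB b) x) = M.prodQ R (σ (.w b)) := by
  rw [LA_eq h hκ hκ0, LB_eq h hκ hκ0]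
  rfl

theorem hQ_eq : σ (.hQ b) = pre (2 ^ M.k) (σ (.Q b)) :=
  h.unE (o := .hQ b) (m := .hh) (a := .Q b) (as := []) (by simp [PP.prG1])

theorem mQ_eq : σ (.mQ b) = invOp R (σ (.Q b)) :=
  h.unE (o := .mQ b) (m := .inv) (a := .Q b) (as := []) (by simp [PP.prG1])

/-- The test of membership of the product of the gates. -/
theorem nQ_eq (h2 : Sol M.k M.off R pub σ ((M.pp R).prG2 b)) {j : ℕ} (hj : j < M.κ) :
    σ (.nQ b j) = fun x => bx j x * invOp R (σ (.Q b)) x := by
  have hn := h2.unE (o := .nQ b j) (m := .mx j) (a := .mQ b) (as := [])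
    (by simp [PP.prG2, pp]; exact hj)
  rw [hn, mQ_eq h]
  rfl

end gates

section rule

variable (h : Sol M.k M.off R pub σ ((M.pp R).prV b))

/-- The content at the input slots of bank `b`, with the flags as contents. -/
def inpM (M : MP) {F : Type} [Field F] (σ : Nm → Ct M.κ F) (b : Bool) : Ct M.κ F := fun x =>
  σ (.zb b) 0 * σ (.w b) x + σ (.zb (!b)) 0 * tr (pt M.κ (M.off (!b))) (σ (.w (!b))) x

include h

theorem xo_eq : σ (.xo b) = tr (pt M.κ (M.off (!b))) (σ (.w (!b))) :=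
  h.unE (o := .xo b) (m := .off (!b)) (a := .w (!b)) (as := []) (by simp [PP.prV])

theorem v1_eq (x : V2 M.κ) : σ (.v1 b) x = M.inpM σ b x + σ (.f b M.L) x := by
  have h1 := h.smulE (o := .i1 b) (a := .zb b) (b := .w b) (by simp [PP.prV])
  have h2 := h.smulE (o := .i2 b) (a := .zb (!b)) (b := .xo b) (by simp [PP.prV])
  have h3 := h.addE (o := .v1 b) (as := [.i1 b, .i2 b, .f b M.L]) (by simp [PP.prV, pp]) x
  simp only [List.map_cons, List.map_nil, List.sum_cons, List.sum_nil, add_zero] at h3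
  rw [h3, h1, h2, xo_eq h, inpM, add_assoc]

theorem v2_eq : σ (.v2 b) = msk (fun x => decide (x % 4 = 0))
    fun x => M.inpM σ b x + σ (.f b M.L) x := by
  have h1 := h.unE (o := .v2 b) (m := .k0) (a := .v1 b) (as := []) (by simp [PP.prV])
  rw [h1, ← funext (v1_eq h)]
  rfl

theorem v3_eq (hκ0 : 0 < M.κ) (hn : 4 * M.n ≤ 2 ^ M.k)
    (hpb : ∀ j < M.k + 1, σ (.pb j) 0 = bF F ((4 * M.n).testBit j)) :
    σ (.v3 b) = pre (4 * M.n) (σ (.v2 b)) := by
  have h1 := h.unE (o := .v3 b) (m := .pre) (a := .v2 b)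
    (as := (List.range (M.k + 1)).map .pb) (by simp [PP.prV, pp])
  rw [h1]
  refine preOp_eq R hκ0 hn (fun j hj => ?_) _
  rw [List.map_map, getD_map_range _ _ j hj]
  exact hpb j hj

theorem v4_eq : σ (.v4 b) = msk (fun x => decide (x % 4 = 0)) (σ (.f b M.L)) :=
  h.unE (o := .v4 b) (m := .k0) (a := .f b M.L) (as := []) (by simp [PP.prV, pp])

theorem v5_eq : σ (.v5 b) = msk (fun x => decide (x % 4 = 1)) (σ (.f b M.L)) :=
  h.unE (o := .v5 b) (m := .k1) (a := .f b M.L) (as := []) (by simp [PP.prV, pp])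

theorem v7_eq (h1 : σ .one = fun _ => 1) (hQ : σ (.hQ b) = pre (2 ^ M.k) (σ (.Q b))) :
    σ (.v7 b) = msk isNand fun y => 1 + pre (2 ^ M.k) (σ (.Q b)) y := by
  have h7 := h.unE (o := .v7 b) (m := .nand) (a := .v6 b) (as := []) (by simp [PP.prV])
  have h6 : σ (.v6 b) = fun y => 1 + pre (2 ^ M.k) (σ (.Q b)) y := by
    funext x
    have := h.addE (o := .v6 b) (as := [.one, .hQ b]) (by simp [PP.prV]) x
    simp only [List.map_cons, List.map_nil, List.sum_cons, List.sum_nil, add_zero] at this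
    rw [this, h1, hQ]
  rw [h7, h6]
  rfl

/-- The right hand side of the rule of bank `b`. -/
theorem V_eq (hκ0 : 0 < M.κ) (hn : 4 * M.n ≤ 2 ^ M.k)
    (hpb : ∀ j < M.k + 1, σ (.pb j) 0 = bF F ((4 * M.n).testBit j))
    (h1 : σ .one = fun _ => 1) (hQ : σ (.hQ b) = pre (2 ^ M.k) (σ (.Q b)))
    (hf : σ (.f b M.L) = M.fw (σ (.w b)) (fun s => σ (.P b s)) M.L) :
    σ (.V b) = fun x => msk M.isIn (M.inpM σ b) x +
      msk M.isCopy (M.fw (σ (.w b)) (fun s => σ (.P b s)) M.L) x +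
      msk isNand (fun y => 1 + pre (2 ^ M.k) (σ (.Q b)) y) x := by
  funext x
  have hV := h.addE (o := .V b) (as := [.v3 b, .v4 b, .v5 b, .v7 b]) (by simp [PP.prV]) x
  simp only [List.map_cons, List.map_nil, List.sum_cons, List.sum_nil, add_zero] at hV
  rw [hV, v3_eq h hκ0 hn hpb, v2_eq h, v4_eq h, v5_eq h, v7_eq h h1 hQ, hf,
    msk_isCopy_eq M R hκ0]
  ring

/-- The restriction of the right hand side of the rule to the height of the bank. -/
theorem pV_eq (hκ0 : 0 < M.κ) {t : ℕ} (ht : t ≤ 2 ^ M.k)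
    (hhb : ∀ j < M.k + 1, σ (.hb b j) 0 = bF F (t.testBit j)) :
    σ (.pV b) = pre t (σ (.V b)) := by
  have h1 := h.unE (o := .pV b) (m := .pre) (a := .V b)
    (as := (List.range (M.k + 1)).map (.hb b)) (by simp [PP.prV, pp])
  rw [h1]
  refine preOp_eq R hκ0 ht (fun j hj => ?_) _
  rw [List.map_map, getD_map_range _ _ j hj]
  exact hhb j hj

theorem hw_eq : σ (.hw b) = pre (2 ^ M.k) (σ (.w b)) :=
  h.unE (o := .hw b) (m := .hh) (a := .w b) (as := []) (by simp [PP.prV])

/-- The check of the gates at the input cells. -/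
theorem c4_eq (hκ0 : 0 < M.κ) (hn : 4 * M.n ≤ 2 ^ M.k)
    (hpb : ∀ j < M.k + 1, σ (.pb j) 0 = bF F ((4 * M.n).testBit j))
    (h1 : σ .one = fun _ => 1) (hA : σ (.A1 b) = tr (pt M.κ 2) (σ (.w b))) :
    σ (.c4 b) = fun x => σ (.zb b) 0 * msk (fun x => isNand x && decide (x < 4 * M.n))
      (fun x => 1 + σ (.w b) x + tr (pt M.κ 2) (σ (.w b)) x) x := by
  have h2 := h.smulE (o := .c4 b) (a := .zb b) (b := .c3 b) (by simp [PP.prV])
  have h3 := h.unE (o := .c3 b) (m := .pre) (a := .c2 b)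
    (as := (List.range (M.k + 1)).map .pb) (by simp [PP.prV, pp])
  have h3' : σ (.c3 b) = pre (4 * M.n) (σ (.c2 b)) := by
    rw [h3]
    refine preOp_eq R hκ0 hn (fun j hj => ?_) _
    rw [List.map_map, getD_map_range _ _ j hj]
    exact hpb j hj
  have h4 := h.unE (o := .c2 b) (m := .nand) (a := .c1 b) (as := []) (by simp [PP.prV])
  have h5 : σ (.c1 b) = fun x => 1 + σ (.w b) x + tr (pt M.κ 2) (σ (.w b)) x := by
    funext x
    have := h.addE (o := .c1 b) (as := [.one, .w b, .A1 b]) (by simp [PP.prV]) x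
    simp only [List.map_cons, List.map_nil, List.sum_cons, List.sum_nil, add_zero] at this
    rw [this, h1, hA, add_assoc]
  have h4' : σ (.c2 b) = msk isNand fun x => 1 + σ (.w b) x + tr (pt M.κ 2) (σ (.w b)) x := by
    rw [h4, h5]
    rfl
  rw [h2, h3', h4']
  funext x
  congr 1
  unfold pre msk
  by_cases ha : num x < 4 * M.n <;> by_cases hb : isNand (num x) = true <;> simp [ha, hb]

end rule

end MP

end Vale.Agent.P330.H16
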